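import Vale.Agent.P224.PO.LawO
import Vale.Agent.P224.PO.LawNumO
import Vale.Agent.P224.PO.Cst

/-!
The numerical law of the certificate in dimension 18.
-/

namespace Vale.Agent.P224.PO.C18

open Vale.Agent.P224 Vale.Agent.P224.UE Vale.Agent.P224.POS Vale.Agent.P224.PO

/-- the ratio of the least Clifford volume in dimension 18 -/
lemma clifford_le : leastClifford 18 ≤ 1433923 / 1000000 * sphereVol 18 :=
  even_bound (k := 9) (by norm_num) (by
    rw [eR_9]
    have := Real.pi_lt_d6
    linarith)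

/-- The numerical law in dimension 18. -/
theorem law_neg {Θ u r H : ℝ} (h1 : 6 / 5 ≤ Θ) (h2 : Θ ≤ 141958377 / 100000000) (hu : 0 ≤ u)
    (hT : Θ ^ 2 * u ≤ 1) (hr1 : u ^ 2 ≤ r) (hr2 : r ≤ u)
    (hH : H = -(3487 / 1073741824) + (-(12985 / 40802189312)) * u + (30345 / 10200547328) * r) :
    Θ * (1 + (-(16902683 / 4294967296)) * u + (-(3985393947 / 4294967296)) * r + (893347395 / 4294967296) * u ^ 2) + KH 18 * H < 0 := by
  have hb : (437580 : ℝ) ≤ KH 18 ∧ KH 18 ≤ 437580 := ⟨KHn_18.ge, KHn_18.le⟩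
  rw [hH]
  exact law_two (Tm := 141958377 / 100000000) hb.1 hb.2 (by norm_num) (by norm_num) (by norm_num) (by norm_num)
    (by norm_num) (by norm_num) (by norm_num)
    (fun T hT1 hT2 => quintic_neg (by norm_num) (by norm_num) (by norm_num) (by norm_num)
      (by norm_num) (by norm_num) (by norm_num) (le_of_eq rfl) (le_of_eq rfl) (le_of_eq rfl)
      (le_of_eq rfl) (le_of_eq rfl) (le_of_eq rfl) hT1 hT2)
    (fun T hT1 hT2 => quintic_neg (by norm_num) (by norm_num) (by norm_num) (by norm_num)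
      (by norm_num) (by norm_num) (by norm_num) (le_of_eq rfl) (le_of_eq rfl) (le_of_eq rfl)
      (le_of_eq rfl) (le_of_eq rfl) (le_of_eq rfl) hT1 hT2)
    (fun T hT1 hT2 => quintic_neg (by norm_num) (by norm_num) (by norm_num) (by norm_num)
      (by norm_num) (by norm_num) (by norm_num) (le_of_eq rfl) (le_of_eq rfl) (le_of_eq rfl)
      (le_of_eq rfl) (le_of_eq rfl) (le_of_eq rfl) hT1 hT2)
    (fun T hT1 hT2 => quintic_neg (by norm_num) (by norm_num) (by norm_num) (by norm_num)
      (by norm_num) (by norm_num) (by norm_num) (le_of_eq rfl) (le_of_eq rfl) (le_of_eq rfl)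
      (le_of_eq rfl) (le_of_eq rfl) (le_of_eq rfl) hT1 hT2)
    h1 h2 hu hT hr1 hr2

end Vale.Agent.P224.PO.C18
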