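import Vale.Agent.P224.PO.SubO

/-!
Certificate data in dimension 18: the elements of the blocks (vector, outer variable, inner
polynomial).
-/

namespace Vale.Agent.P224.PO.C18

open Vale.Agent.P224.POS Vale.Agent.P224.PO

noncomputable section

/-- elements of block 0 (1*vec00) -/
def els0 : List (Nat × Nat × PE) := [
  (1, 0, .v 1),
  (1, 0, .mul (.pow (.v 0) 2) (.v 1)),
  (1, 0, .mul (.pow (.v 0) 4) (.v 1)),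
  (1, 0, .mul (.pow (.v 0) 6) (.v 1)),
  (1, 0, .mul (.pow (.v 0) 8) (.v 1)),
  (1, 0, .mul (.v 1) (.v 3)),
  (1, 0, .mul (.mul (.pow (.v 0) 2) (.v 1)) (.v 3)),
  (2, 0, .v 2),
  (2, 0, .mul (.pow (.v 0) 2) (.v 2)),
  (2, 0, .mul (.pow (.v 0) 4) (.v 2)),
  (2, 0, .mul (.pow (.v 0) 6) (.v 2)),
  (2, 0, .mul (.pow (.v 0) 8) (.v 2)),
  (2, 0, .mul (.v 2) (.v 3)),
  (2, 0, .mul (.mul (.pow (.v 0) 2) (.v 2)) (.v 3)),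
  (3, 0, .pow (.v 0) 2),
  (3, 0, .pow (.v 0) 4),
  (3, 0, .pow (.v 0) 6),
  (3, 0, .pow (.v 0) 8),
  (3, 0, .pow (.v 0) 10),
  (3, 0, .mul (.pow (.v 0) 2) (.v 3)),
  (3, 0, .mul (.pow (.v 0) 4) (.v 3)),
  (3, 0, .mul (.pow (.v 0) 6) (.v 3)),
  (3, 0, .mul (.pow (.v 0) 8) (.v 3)),
  (3, 0, .mul (.pow (.v 0) 2) (.pow (.v 3) 2)),
  (3, 0, .pow (.v 2) 2),
  (3, 0, .mul (.pow (.v 0) 2) (.pow (.v 2) 2)),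
  (3, 0, .pow (.v 1) 2),
  (3, 0, .mul (.pow (.v 0) 2) (.pow (.v 1) 2)),
  (4, 0, .mul (.v 1) (.v 2)),
  (4, 0, .mul (.mul (.pow (.v 0) 2) (.v 1)) (.v 2)),
  (5, 0, .pow (.v 0) 2),
  (5, 0, .pow (.v 0) 4),
  (5, 0, .pow (.v 0) 6),
  (5, 0, .pow (.v 0) 8),
  (5, 0, .pow (.v 0) 10),
  (5, 0, .mul (.pow (.v 0) 2) (.v 3)),
  (5, 0, .mul (.pow (.v 0) 4) (.v 3)),
  (1, 4, .pow (.v 0) 2),
  (1, 4, .pow (.v 0) 4),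
  (1, 4, .pow (.v 0) 6),
  (1, 4, .pow (.v 0) 8),
  (1, 4, .pow (.v 0) 10),
  (1, 4, .mul (.pow (.v 0) 2) (.v 3)),
  (1, 4, .mul (.pow (.v 0) 4) (.v 3)),
  (1, 6, .v 1),
  (1, 6, .mul (.pow (.v 0) 2) (.v 1)),
  (1, 6, .mul (.pow (.v 0) 4) (.v 1)),
  (1, 7, .v 2),
  (1, 7, .mul (.pow (.v 0) 2) (.v 2)),
  (1, 7, .mul (.pow (.v 0) 4) (.v 2)),
  (2, 5, .c 1),
  (2, 5, .pow (.v 0) 2),
  (2, 5, .pow (.v 0) 4),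
  (2, 5, .pow (.v 0) 6),
  (2, 5, .pow (.v 0) 8),
  (2, 5, .pow (.v 0) 10),
  (2, 5, .v 3),
  (2, 5, .mul (.pow (.v 0) 2) (.v 3)),
  (2, 5, .mul (.pow (.v 0) 4) (.v 3)),
  (2, 6, .v 2),
  (2, 6, .mul (.pow (.v 0) 2) (.v 2)),
  (2, 6, .mul (.pow (.v 0) 4) (.v 2)),
  (2, 7, .v 1),
  (2, 7, .mul (.pow (.v 0) 2) (.v 1)),
  (2, 7, .mul (.pow (.v 0) 4) (.v 1)),
  (3, 4, .v 1),
  (3, 4, .mul (.pow (.v 0) 2) (.v 1)),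
  (3, 4, .mul (.pow (.v 0) 4) (.v 1)),
  (3, 5, .v 2),
  (3, 5, .mul (.pow (.v 0) 2) (.v 2)),
  (3, 5, .mul (.pow (.v 0) 4) (.v 2)),
  (3, 6, .pow (.v 0) 2),
  (3, 6, .pow (.v 0) 4),
  (3, 6, .pow (.v 0) 6),
  (3, 6, .pow (.v 0) 8),
  (3, 6, .pow (.v 0) 10),
  (3, 6, .mul (.pow (.v 0) 2) (.v 3)),
  (3, 6, .mul (.pow (.v 0) 4) (.v 3)),
  (4, 4, .v 2),
  (4, 4, .mul (.pow (.v 0) 2) (.v 2)),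
  (4, 4, .mul (.pow (.v 0) 4) (.v 2)),
  (4, 5, .v 1),
  (4, 5, .mul (.pow (.v 0) 2) (.v 1)),
  (4, 5, .mul (.pow (.v 0) 4) (.v 1)),
  (4, 7, .pow (.v 0) 2),
  (4, 7, .pow (.v 0) 4),
  (4, 7, .pow (.v 0) 6),
  (4, 7, .pow (.v 0) 8),
  (4, 7, .pow (.v 0) 10),
  (4, 7, .mul (.pow (.v 0) 2) (.v 3)),
  (4, 7, .mul (.pow (.v 0) 4) (.v 3))]

/-- elements of block 1 (1*vec01) -/
def els1 : List (Nat × Nat × PE) := [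
  (1, 0, .v 2),
  (1, 0, .mul (.pow (.v 0) 2) (.v 2)),
  (1, 0, .mul (.pow (.v 0) 4) (.v 2)),
  (1, 0, .mul (.pow (.v 0) 6) (.v 2)),
  (1, 0, .mul (.pow (.v 0) 8) (.v 2)),
  (1, 0, .mul (.v 2) (.v 3)),
  (1, 0, .mul (.mul (.pow (.v 0) 2) (.v 2)) (.v 3)),
  (2, 0, .v 1),
  (2, 0, .mul (.pow (.v 0) 2) (.v 1)),
  (2, 0, .mul (.pow (.v 0) 4) (.v 1)),
  (2, 0, .mul (.pow (.v 0) 6) (.v 1)),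
  (2, 0, .mul (.pow (.v 0) 8) (.v 1)),
  (2, 0, .mul (.v 1) (.v 3)),
  (2, 0, .mul (.mul (.pow (.v 0) 2) (.v 1)) (.v 3)),
  (3, 0, .mul (.v 1) (.v 2)),
  (3, 0, .mul (.mul (.pow (.v 0) 2) (.v 1)) (.v 2)),
  (4, 0, .pow (.v 0) 2),
  (4, 0, .pow (.v 0) 4),
  (4, 0, .pow (.v 0) 6),
  (4, 0, .pow (.v 0) 8),
  (4, 0, .pow (.v 0) 10),
  (4, 0, .mul (.pow (.v 0) 2) (.v 3)),
  (4, 0, .mul (.pow (.v 0) 4) (.v 3)),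
  (4, 0, .mul (.pow (.v 0) 6) (.v 3)),
  (4, 0, .mul (.pow (.v 0) 8) (.v 3)),
  (4, 0, .mul (.pow (.v 0) 2) (.pow (.v 3) 2)),
  (4, 0, .pow (.v 2) 2),
  (4, 0, .mul (.pow (.v 0) 2) (.pow (.v 2) 2)),
  (4, 0, .pow (.v 1) 2),
  (4, 0, .mul (.pow (.v 0) 2) (.pow (.v 1) 2)),
  (1, 5, .pow (.v 0) 2),
  (1, 5, .pow (.v 0) 4),
  (1, 5, .pow (.v 0) 6),
  (1, 5, .pow (.v 0) 8),
  (1, 5, .pow (.v 0) 10),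
  (1, 5, .mul (.pow (.v 0) 2) (.v 3)),
  (1, 5, .mul (.pow (.v 0) 4) (.v 3)),
  (1, 6, .v 2),
  (1, 6, .mul (.pow (.v 0) 2) (.v 2)),
  (1, 6, .mul (.pow (.v 0) 4) (.v 2)),
  (1, 7, .v 1),
  (1, 7, .mul (.pow (.v 0) 2) (.v 1)),
  (1, 7, .mul (.pow (.v 0) 4) (.v 1)),
  (2, 4, .pow (.v 0) 2),
  (2, 4, .pow (.v 0) 4),
  (2, 4, .pow (.v 0) 6),
  (2, 4, .pow (.v 0) 8),
  (2, 4, .pow (.v 0) 10),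
  (2, 4, .mul (.pow (.v 0) 2) (.v 3)),
  (2, 4, .mul (.pow (.v 0) 4) (.v 3)),
  (2, 6, .v 1),
  (2, 6, .mul (.pow (.v 0) 2) (.v 1)),
  (2, 6, .mul (.pow (.v 0) 4) (.v 1)),
  (2, 7, .v 2),
  (2, 7, .mul (.pow (.v 0) 2) (.v 2)),
  (2, 7, .mul (.pow (.v 0) 4) (.v 2)),
  (3, 4, .v 2),
  (3, 4, .mul (.pow (.v 0) 2) (.v 2)),
  (3, 4, .mul (.pow (.v 0) 4) (.v 2)),
  (3, 5, .v 1),
  (3, 5, .mul (.pow (.v 0) 2) (.v 1)),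
  (3, 5, .mul (.pow (.v 0) 4) (.v 1)),
  (3, 7, .pow (.v 0) 2),
  (3, 7, .pow (.v 0) 4),
  (3, 7, .pow (.v 0) 6),
  (3, 7, .pow (.v 0) 8),
  (3, 7, .pow (.v 0) 10),
  (3, 7, .mul (.pow (.v 0) 2) (.v 3)),
  (3, 7, .mul (.pow (.v 0) 4) (.v 3)),
  (4, 4, .v 1),
  (4, 4, .mul (.pow (.v 0) 2) (.v 1)),
  (4, 4, .mul (.pow (.v 0) 4) (.v 1)),
  (4, 5, .v 2),
  (4, 5, .mul (.pow (.v 0) 2) (.v 2)),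
  (4, 5, .mul (.pow (.v 0) 4) (.v 2)),
  (4, 6, .pow (.v 0) 2),
  (4, 6, .pow (.v 0) 4),
  (4, 6, .pow (.v 0) 6),
  (4, 6, .pow (.v 0) 8),
  (4, 6, .pow (.v 0) 10),
  (4, 6, .mul (.pow (.v 0) 2) (.v 3)),
  (4, 6, .mul (.pow (.v 0) 4) (.v 3))]

/-- elements of block 2 (1*vec10) -/
def els2 : List (Nat × Nat × PE) := [
  (1, 0, .pow (.v 0) 2),
  (1, 0, .pow (.v 0) 4),
  (1, 0, .pow (.v 0) 6),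
  (1, 0, .pow (.v 0) 8),
  (1, 0, .pow (.v 0) 10),
  (1, 0, .mul (.pow (.v 0) 2) (.v 3)),
  (1, 0, .mul (.pow (.v 0) 4) (.v 3)),
  (1, 0, .mul (.pow (.v 0) 6) (.v 3)),
  (1, 0, .mul (.pow (.v 0) 8) (.v 3)),
  (1, 0, .mul (.pow (.v 0) 2) (.pow (.v 3) 2)),
  (1, 0, .pow (.v 2) 2),
  (1, 0, .mul (.pow (.v 0) 2) (.pow (.v 2) 2)),
  (1, 0, .pow (.v 1) 2),
  (1, 0, .mul (.pow (.v 0) 2) (.pow (.v 1) 2)),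
  (2, 0, .mul (.v 1) (.v 2)),
  (2, 0, .mul (.mul (.pow (.v 0) 2) (.v 1)) (.v 2)),
  (3, 0, .v 1),
  (3, 0, .mul (.pow (.v 0) 2) (.v 1)),
  (3, 0, .mul (.pow (.v 0) 4) (.v 1)),
  (3, 0, .mul (.pow (.v 0) 6) (.v 1)),
  (3, 0, .mul (.pow (.v 0) 8) (.v 1)),
  (3, 0, .mul (.v 1) (.v 3)),
  (3, 0, .mul (.mul (.pow (.v 0) 2) (.v 1)) (.v 3)),
  (4, 0, .v 2),
  (4, 0, .mul (.pow (.v 0) 2) (.v 2)),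
  (4, 0, .mul (.pow (.v 0) 4) (.v 2)),
  (4, 0, .mul (.pow (.v 0) 6) (.v 2)),
  (4, 0, .mul (.pow (.v 0) 8) (.v 2)),
  (4, 0, .mul (.v 2) (.v 3)),
  (4, 0, .mul (.mul (.pow (.v 0) 2) (.v 2)) (.v 3)),
  (5, 0, .v 1),
  (5, 0, .mul (.pow (.v 0) 2) (.v 1)),
  (5, 0, .mul (.pow (.v 0) 4) (.v 1)),
  (1, 4, .v 1),
  (1, 4, .mul (.pow (.v 0) 2) (.v 1)),
  (1, 4, .mul (.pow (.v 0) 4) (.v 1)),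
  (1, 5, .v 2),
  (1, 5, .mul (.pow (.v 0) 2) (.v 2)),
  (1, 5, .mul (.pow (.v 0) 4) (.v 2)),
  (1, 6, .pow (.v 0) 2),
  (1, 6, .pow (.v 0) 4),
  (1, 6, .pow (.v 0) 6),
  (1, 6, .pow (.v 0) 8),
  (1, 6, .pow (.v 0) 10),
  (1, 6, .mul (.pow (.v 0) 2) (.v 3)),
  (1, 6, .mul (.pow (.v 0) 4) (.v 3)),
  (2, 4, .v 2),
  (2, 4, .mul (.pow (.v 0) 2) (.v 2)),
  (2, 4, .mul (.pow (.v 0) 4) (.v 2)),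
  (2, 5, .v 1),
  (2, 5, .mul (.pow (.v 0) 2) (.v 1)),
  (2, 5, .mul (.pow (.v 0) 4) (.v 1)),
  (2, 7, .pow (.v 0) 2),
  (2, 7, .pow (.v 0) 4),
  (2, 7, .pow (.v 0) 6),
  (2, 7, .pow (.v 0) 8),
  (2, 7, .pow (.v 0) 10),
  (2, 7, .mul (.pow (.v 0) 2) (.v 3)),
  (2, 7, .mul (.pow (.v 0) 4) (.v 3)),
  (3, 4, .pow (.v 0) 2),
  (3, 4, .pow (.v 0) 4),
  (3, 4, .pow (.v 0) 6),
  (3, 4, .pow (.v 0) 8),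
  (3, 4, .pow (.v 0) 10),
  (3, 4, .mul (.pow (.v 0) 2) (.v 3)),
  (3, 4, .mul (.pow (.v 0) 4) (.v 3)),
  (3, 6, .v 1),
  (3, 6, .mul (.pow (.v 0) 2) (.v 1)),
  (3, 6, .mul (.pow (.v 0) 4) (.v 1)),
  (3, 7, .v 2),
  (3, 7, .mul (.pow (.v 0) 2) (.v 2)),
  (3, 7, .mul (.pow (.v 0) 4) (.v 2)),
  (4, 5, .pow (.v 0) 2),
  (4, 5, .pow (.v 0) 4),
  (4, 5, .pow (.v 0) 6),
  (4, 5, .pow (.v 0) 8),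
  (4, 5, .pow (.v 0) 10),
  (4, 5, .mul (.pow (.v 0) 2) (.v 3)),
  (4, 5, .mul (.pow (.v 0) 4) (.v 3)),
  (4, 6, .v 2),
  (4, 6, .mul (.pow (.v 0) 2) (.v 2)),
  (4, 6, .mul (.pow (.v 0) 4) (.v 2)),
  (4, 7, .v 1),
  (4, 7, .mul (.pow (.v 0) 2) (.v 1)),
  (4, 7, .mul (.pow (.v 0) 4) (.v 1))]

/-- elements of block 3 (1*vec11) -/
def els3 : List (Nat × Nat × PE) := [
  (1, 0, .mul (.v 1) (.v 2)),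
  (1, 0, .mul (.mul (.pow (.v 0) 2) (.v 1)) (.v 2)),
  (2, 0, .pow (.v 0) 2),
  (2, 0, .pow (.v 0) 4),
  (2, 0, .pow (.v 0) 6),
  (2, 0, .pow (.v 0) 8),
  (2, 0, .pow (.v 0) 10),
  (2, 0, .mul (.pow (.v 0) 2) (.v 3)),
  (2, 0, .mul (.pow (.v 0) 4) (.v 3)),
  (2, 0, .mul (.pow (.v 0) 6) (.v 3)),
  (2, 0, .mul (.pow (.v 0) 8) (.v 3)),
  (2, 0, .mul (.pow (.v 0) 2) (.pow (.v 3) 2)),
  (2, 0, .pow (.v 2) 2),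
  (2, 0, .mul (.pow (.v 0) 2) (.pow (.v 2) 2)),
  (2, 0, .pow (.v 1) 2),
  (2, 0, .mul (.pow (.v 0) 2) (.pow (.v 1) 2)),
  (3, 0, .v 2),
  (3, 0, .mul (.pow (.v 0) 2) (.v 2)),
  (3, 0, .mul (.pow (.v 0) 4) (.v 2)),
  (3, 0, .mul (.pow (.v 0) 6) (.v 2)),
  (3, 0, .mul (.pow (.v 0) 8) (.v 2)),
  (3, 0, .mul (.v 2) (.v 3)),
  (3, 0, .mul (.mul (.pow (.v 0) 2) (.v 2)) (.v 3)),
  (4, 0, .v 1),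
  (4, 0, .mul (.pow (.v 0) 2) (.v 1)),
  (4, 0, .mul (.pow (.v 0) 4) (.v 1)),
  (4, 0, .mul (.pow (.v 0) 6) (.v 1)),
  (4, 0, .mul (.pow (.v 0) 8) (.v 1)),
  (4, 0, .mul (.v 1) (.v 3)),
  (4, 0, .mul (.mul (.pow (.v 0) 2) (.v 1)) (.v 3)),
  (5, 0, .v 2),
  (5, 0, .mul (.pow (.v 0) 2) (.v 2)),
  (5, 0, .mul (.pow (.v 0) 4) (.v 2)),
  (1, 4, .v 2),
  (1, 4, .mul (.pow (.v 0) 2) (.v 2)),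
  (1, 4, .mul (.pow (.v 0) 4) (.v 2)),
  (1, 5, .v 1),
  (1, 5, .mul (.pow (.v 0) 2) (.v 1)),
  (1, 5, .mul (.pow (.v 0) 4) (.v 1)),
  (1, 7, .pow (.v 0) 2),
  (1, 7, .pow (.v 0) 4),
  (1, 7, .pow (.v 0) 6),
  (1, 7, .pow (.v 0) 8),
  (1, 7, .pow (.v 0) 10),
  (1, 7, .mul (.pow (.v 0) 2) (.v 3)),
  (1, 7, .mul (.pow (.v 0) 4) (.v 3)),
  (2, 4, .v 1),
  (2, 4, .mul (.pow (.v 0) 2) (.v 1)),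
  (2, 4, .mul (.pow (.v 0) 4) (.v 1)),
  (2, 5, .v 2),
  (2, 5, .mul (.pow (.v 0) 2) (.v 2)),
  (2, 5, .mul (.pow (.v 0) 4) (.v 2)),
  (2, 6, .pow (.v 0) 2),
  (2, 6, .pow (.v 0) 4),
  (2, 6, .pow (.v 0) 6),
  (2, 6, .pow (.v 0) 8),
  (2, 6, .pow (.v 0) 10),
  (2, 6, .mul (.pow (.v 0) 2) (.v 3)),
  (2, 6, .mul (.pow (.v 0) 4) (.v 3)),
  (3, 5, .pow (.v 0) 2),
  (3, 5, .pow (.v 0) 4),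
  (3, 5, .pow (.v 0) 6),
  (3, 5, .pow (.v 0) 8),
  (3, 5, .pow (.v 0) 10),
  (3, 5, .mul (.pow (.v 0) 2) (.v 3)),
  (3, 5, .mul (.pow (.v 0) 4) (.v 3)),
  (3, 6, .v 2),
  (3, 6, .mul (.pow (.v 0) 2) (.v 2)),
  (3, 6, .mul (.pow (.v 0) 4) (.v 2)),
  (3, 7, .v 1),
  (3, 7, .mul (.pow (.v 0) 2) (.v 1)),
  (3, 7, .mul (.pow (.v 0) 4) (.v 1)),
  (4, 4, .pow (.v 0) 2),
  (4, 4, .pow (.v 0) 4),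
  (4, 4, .pow (.v 0) 6),
  (4, 4, .pow (.v 0) 8),
  (4, 4, .pow (.v 0) 10),
  (4, 4, .mul (.pow (.v 0) 2) (.v 3)),
  (4, 4, .mul (.pow (.v 0) 4) (.v 3)),
  (4, 6, .v 1),
  (4, 6, .mul (.pow (.v 0) 2) (.v 1)),
  (4, 6, .mul (.pow (.v 0) 4) (.v 1)),
  (4, 7, .v 2),
  (4, 7, .mul (.pow (.v 0) 2) (.v 2)),
  (4, 7, .mul (.pow (.v 0) 4) (.v 2))]

/-- elements of block 4 ((u1-E)*sca00) -/
def els4 : List (Nat × Nat × PE) := [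
  (0, 0, .pow (.v 0) 2),
  (0, 0, .pow (.v 0) 4),
  (0, 0, .pow (.v 0) 6),
  (0, 0, .pow (.v 0) 8),
  (0, 0, .mul (.pow (.v 0) 2) (.v 3)),
  (0, 0, .mul (.pow (.v 0) 4) (.v 3))]

/-- elements of block 5 ((u1-E)*sca10) -/
def els5 : List (Nat × Nat × PE) := [
  (0, 0, .v 1),
  (0, 0, .mul (.pow (.v 0) 2) (.v 1)),
  (0, 0, .mul (.pow (.v 0) 4) (.v 1))]

/-- elements of block 6 ((u1-E)*sca11) -/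
def els6 : List (Nat × Nat × PE) := [
  (0, 0, .v 2),
  (0, 0, .mul (.pow (.v 0) 2) (.v 2)),
  (0, 0, .mul (.pow (.v 0) 4) (.v 2))]

end

end Vale.Agent.P224.PO.C18
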