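import Vale.Agent.P224.PO.ChkF
import Vale.Agent.P224.PO.C18.Rows
import Vale.Agent.P224.PO.C18.El
import Vale.Agent.P224.PO.C18.DF0
import Vale.Agent.P224.PO.C18.DF1

/-!
The identity of the certificate in dimension 18 and the positivity of its left side.
-/

namespace Vale.Agent.P224.PO.C18

open Vale.Agent.P224.UE Vale.Agent.P224.POS Vale.Agent.P224.PO
open scoped RealInnerProductSpace

noncomputable section

/-- the blocks with the multiplier number 0 -/
def B1 : List BlkG := [⟨els0, G0⟩, ⟨els1, G1⟩, ⟨els2, G2⟩, ⟨els3, G3⟩]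

/-- the blocks with the multiplier number 1 -/
def Br : List BlkG := []

/-- the blocks with the multiplier number 2 -/
def S1 : List BlkG := [⟨els4, G4⟩, ⟨els5, G5⟩, ⟨els6, G6⟩]

/-- the blocks with the multiplier number 3 -/
def Sr : List BlkG := []

/-- the integers replacing the first four variables (not powers of two: the kernel hashes a numeral
by its last 64 bits) -/
def Ms : List Nat := [
  Nat.add (Nat.pow 2 70) 1090297408444377839,
  Nat.add (Nat.pow 2 1598) 672893673074899541,
  Nat.add (Nat.pow 2 8324) 494586791774247929,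
  Nat.add (Nat.pow 2 41954) 946030352018653745]

set_option maxRecDepth 100000 in
/-- the entries are bounded -/
theorem idG : allB 64584802510476 (mulH B1 Br S1 Sr) = true := by decide +kernel

set_option maxRecDepth 100000 in
/-- the bounds -/
theorem idB : bchkN (bndH 8 64584802510476 P (mulH B1 Br S1 Sr)) Ms [] = true := by decide +kernel

set_option maxRecDepth 100000 in
/-- **The identity**, checked by the kernel. -/
theorem idM : HP.zero (PE.hp (env Ms)
    (PE.sub (PE.sb sbH P) (PE.mul (PE.c 8) (rhsG tabH (mulH B1 Br S1 Sr))))) = true := by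
  decide +kernel

set_option maxRecDepth 100000 in
lemma tri0 : tri G0 0 = true := by decide +kernel

set_option maxRecDepth 100000 in
lemma tri1 : tri G1 0 = true := by decide +kernel

set_option maxRecDepth 100000 in
lemma tri2 : tri G2 0 = true := by decide +kernel

set_option maxRecDepth 100000 in
lemma tri3 : tri G3 0 = true := by decide +kernel

set_option maxRecDepth 100000 in
lemma tri4 : tri G4 0 = true := by decide +kernel

set_option maxRecDepth 100000 in
lemma tri5 : tri G5 0 = true := by decide +kernel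

set_option maxRecDepth 100000 in
lemma tri6 : tri G6 0 = true := by decide +kernel

lemma hB1 : GoodB B1 := by
  intro B hB
  unfold B1 at hB
  rcases List.mem_cons.1 hB with rfl | hB
  · exact ⟨tri0, fun x => qpos_of_psdF psd0 x⟩
  rcases List.mem_cons.1 hB with rfl | hB
  · exact ⟨tri1, fun x => qpos_of_psdF psd1 x⟩
  rcases List.mem_cons.1 hB with rfl | hB
  · exact ⟨tri2, fun x => qpos_of_psdF psd2 x⟩
  rcases List.mem_cons.1 hB with rfl | hB
  · exact ⟨tri3, fun x => qpos_of_psdF psd3 x⟩
  · exact absurd hB List.not_mem_nil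

lemma hBr : GoodB Br := by
  intro B hB
  unfold Br at hB
  · exact absurd hB List.not_mem_nil

lemma hS1 : GoodB S1 := by
  intro B hB
  unfold S1 at hB
  rcases List.mem_cons.1 hB with rfl | hB
  · exact ⟨tri4, fun x => qpos_of_psdF psd4 x⟩
  rcases List.mem_cons.1 hB with rfl | hB
  · exact ⟨tri5, fun x => qpos_of_psdF psd5 x⟩
  rcases List.mem_cons.1 hB with rfl | hB
  · exact ⟨tri6, fun x => qpos_of_psdF psd6 x⟩
  · exact absurd hB List.not_mem_nil

lemma hSr : GoodB Sr := by
  intro B hB
  unfold Sr at hB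
  · exact absurd hB List.not_mem_nil

/-- **Positivity** of the left side on pair data with a vector of length at most `5 / 6`. -/
theorem pos {E : Type*} [NormedAddCommGroup E] [InnerProductSpace ℝ E] {e x N y w : E}
    (he : ‖e‖ ^ 2 ≤ 25 / 36) (hx : ‖x‖ = 1) (hN : ‖N‖ = 1) (hy : ‖y‖ = 1) (hw : ‖w‖ = 1)
    (hxN : ⟪x, N⟫ = 0) (hyw : ⟪y, w⟫ = 0) (hs : ⟪x, y⟫ < 1) :
    0 ≤ PE.ev (vh (dv x N y w e)) P :=
  nonneg_of_chkHF 8 (by norm_num) idG idB idM hB1 hBr hS1 hSr he hx hN hy hw hxN hyw hs

/-- **The pointwise inequality of the certificate.** -/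
theorem hpos {E : Type*} [NormedAddCommGroup E] [InnerProductSpace ℝ E] (e x N y w : E)
    (he : ‖e‖ ^ 2 ≤ 25 / 36) (hx : ‖x‖ = 1) (hN : ‖N‖ = 1) (hy : ‖y‖ = 1) (hw : ‖w‖ = 1)
    (hxN : ⟪x, N⟫ = 0) (hyw : ⟪y, w⟫ = 0) (hs : ⟪x, y⟫ < 1) :
    0 ≤ Vale.Agent.P224.UE.W9 (1752346656768 / 1752346656768) (863293083768 / 1752346656768) (-5558003614224 / 1752346656768) (4687814235792 / 1752346656768) (-2530872968160 / 1752346656768) (269691119976 / 1752346656768) (94794617184 / 1752346656768) (904832237784 / 1752346656768) (0 / 1752346656768)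
        (dv x N y w e)
      + hsum 18 (rlH 1752346656768 rows) (dv x N y w e) :=
  pos_of hs (pos he hx hN hy hw hxN hyw hs)

end

end Vale.Agent.P224.PO.C18
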